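import Crest.Agent.X262.Emb11.Def2
import Crest.Agent.X262.Vb.Ax0
import Crest.Agent.X262.Cnt37.Core
import Crest.Agent.X262.Emb71.Fn

/-!
# Row 262, road B, EMB (helper1): `EmbStmt` from the field-level statement
-/

set_option autoImplicit false
set_option linter.unusedSectionVars false

noncomputable section

namespace Crest.Agent.X262.EmbA

open Crest.Agent.X277 Crest.Agent.X277.BD Crest.Agent.X277.Pst Crest.Agent.X277.BD.Cyc
open Crest.Agent.X262.Hb Crest.Agent.X262.Vb Crest.Agent.X262.Emb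
open Crest.Agent.X262.Sym65 (sm Fs)

theorem sm_fin {K : Type} [Field K] [Algebra ℂ K] {a : BD ℂ K} {ι : Type*} (s : Finset ι)
    {f : ι → RZ ℂ K → ℂ} (h : ∀ i, Fs a (f i)) :
    Fs a (fun V => ∑ i ∈ s, f i V) ∧ (sm a fun V => ∑ i ∈ s, f i V) = ∑ i ∈ s, sm a (f i) := by
  induction s using Finset.cons_induction with
  | empty => exact ⟨Set.finite_empty.subset fun V hV => hV.2 (by simp), by simp [sm]⟩
  | cons i s hi ih =>
    simp only [Finset.sum_cons]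
    exact ⟨(h i).add ih.1, by rw [Sym65.sm_add (h i) ih.1, ih.2]⟩

theorem mcls_prF {J : Type} [Fintype J] [DecidableEq J] {io : Option J → Type}
    [∀ j, Fintype (io j)] [∀ j, DecidableEq (io j)] {A A' : Type} [Fintype A] [Fintype A']
    {T : Tgt (bs io) A} {T' : Tgt io A'} {d : J → ℕ} (G : Gr T T' d) {B : Th} {M : Type}
    {Φ : MFam B (bs io) M} (h : MCls B T Φ) : MCls B T' (prF Φ) :=
  ⟨fun E _ _ _ y c h1 h2 h3 => h.scl E (fun q => prP (y q)) (fun q j => c q (some j))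
      (fun _ _ => h1 _ _) (fun _ _ => h2 _ _) fun q => Emb71.on_prP G (h3 q),
    fun K E _ _ _ _ _ _ p y h1 h2 => h.nat K E p (fun q => prP (y q)) (fun _ _ => h1 _ _)
      fun q => Emb71.on_prP G (h2 q)⟩

/-- **EMB** from the field-level statement -/
theorem embStmt_of_core (hC : CoreStmt) (hL : LftStmt) (hU : UnivStmt) : EmbStmt := by
  intro B hB J _ _ io _ _ A A' _ _ T T' c d hn hG hG' G
  obtain ⟨nw, ⟨N₀, n₀, h0⟩, h1⟩ := hC B hB G c (hn none) hG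
  choose N₁ h1 using fun n => h1 n (hG' n)
  choose N₂ h2 using fun n => (hG' n).vir_eq hB
  obtain ⟨N₃, h3⟩ := hG.vir_eq hB
  refine ⟨n₀, fun {M} _ Φ hΦ => ?_⟩
  by_cases hM : 3 ≤ Fintype.card M
  swap
  · have h4 : ∀ n, GW B T' (exd d n) (prF Φ) = 0 := fun n =>
      GW_of_not (fun ⟨_, _, _, _, h⟩ => hM (Vb37.univ_card h)) _
    refine ⟨fun n _ => h4 n, ?_⟩
    rw [GW_of_not fun ⟨_, _, _, _, h⟩ => hM (Vb37.univ_card h), Finset.sum_eq_zero fun n _ => h4 n]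
  obtain ⟨K₀, _, _, _, ξ₀, hu⟩ := Vb37.exists_univ (io := bs io) (d := d) (fun j => hn _) hM
  have main : ∀ (n N : ℕ), N₁ n ≤ N → N₂ n ≤ N → ∀ {K I : Type} [Field K] [Algebra ℂ K]
      [Algebra.EssFiniteType ℂ K] [Fintype I] (θ : K₀ →ₐ[ℂ] K) (m : M → I)
      (ξ : Dat (bs io) d I K), 0 < deg θ → ξ.res m = ξ₀.map θ → ξ.NrmUp N → Lft T T' N ξ →
      (sm (ξ.cfg.dv T) fun W => if nw I (Rf W) (ξ.cfg.red (plV W)) = n then
        B.itg (Rf W) (trm B T ξ.cfg m Φ W) else 0) = deg θ * GW B T' (exd d n) (prF Φ) := by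
    intro n N a1 a2 K I _ _ _ _ θ m ξ hθ hm hN hl
    obtain ⟨L₀, _, _, _, L, _, _, _, θ', α, I', _, g, η, b1, b2, b3, b4, b5, b6, b7⟩ :=
      hU n N (hn none) ξ₀ θ ξ m hu hθ hm
    have hO : ¬ ξ.cfg.On T := fun h => by
      have h4 : (ξ.res m).cfg.On T := fun q => h (m q)
      rw [hm, Vb37.cfg_map, Cfg.on_map] at h4
      obtain ⟨a, ha⟩ := hG.1
      obtain ⟨q⟩ := Fintype.card_pos_iff.1 (show 0 < Fintype.card M by omega)
      exact ha (Cnt37.univ_pv hu q (T.hom a) (h4 q a))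
    have e1 := h1 n N a1 ξ α η g m Φ hΦ hN hl hO b1 b2 b5 b6
    have e2 : ((deg θ' : ℤ) : ℂ) = _ := congrArg _ b7
    rw [h2 n _ (mcls_prF G hΦ) b3 (Vb10.nrmUp_mono b2 a2)] at e1
    rw [Int.cast_natCast, Int.cast_mul, Int.cast_natCast] at e2
    refine mul_left_cancel₀ (fun h => ?_) (e1.symm.trans (by rw [e2]; ring))
    rw [h, mul_zero, Nat.cast_eq_zero] at e2
    omega
  refine ⟨fun n hn => ?_, ?_⟩
  · obtain ⟨K, _, _, _, θ, I, _, m, ξ, b1, b2, b3, b4⟩ := hL G (max N₀ (max (N₁ n) (N₂ n))) ξ₀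
    have e1 := main n _ (by omega) (by omega) θ m ξ b1 b2 b3 b4
    rw [Vb.sm_eq_zero fun W _ h => if_neg
      ((h0 _ (by omega) ξ b4 W (on_at ξ.cfg_nz h)).trans_lt hn).ne] at e1
    exact (mul_eq_zero.1 e1.symm).resolve_left (Nat.cast_ne_zero.2 b1.ne')
  · obtain ⟨N, c1, c2⟩ : ∃ N, max N₀ N₃ ≤ N ∧ ∀ n ∈ Finset.range (n₀ + 1), max (N₁ n) (N₂ n) ≤ N :=
      ⟨max (max N₀ N₃) ((Finset.range (n₀ + 1)).sup fun n => max (N₁ n) (N₂ n)), le_max_left _ _,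
        fun n hn => (Finset.le_sup (f := fun n => max (N₁ n) (N₂ n)) hn).trans (le_max_right _ _)⟩
    obtain ⟨K, _, _, _, θ, I, _, m, ξ, b1, b2, b3, b4⟩ := hL G N ξ₀
    refine mul_left_cancel₀ (Nat.cast_ne_zero.2 b1.ne' : (deg θ : ℂ) ≠ 0) ?_
    have ho : Over ξ m θ := ⟨ξ₀, hu, by rw [b2]; exact Vb37.eqv_refl _⟩
    rw [← h3 Φ hΦ ho (Vb10.nrmUp_mono b3 (by omega)), Finset.mul_sum,
      ← Finset.sum_congr rfl fun n hn => main n N ((le_max_left _ _).trans (c2 n hn))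
        ((le_max_right _ _).trans (c2 n hn)) θ m ξ b1 b2 b3 b4,
      ← (sm_fin _ fun n => (fs_vir hB hΦ ξ.cfg_nz m).of_imp fun W _ h h' => h (by
        split_ifs; exacts [h', mul_zero _])).2]
    refine Vb.sm_congr fun W _ h => ?_
    rw [Finset.sum_ite_eq, if_pos (Finset.mem_range.2
      (Nat.lt_succ_of_le (h0 N (by omega) ξ b4 W (on_at ξ.cfg_nz h))))]

end Crest.Agent.X262.EmbA
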