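import Crest.Agent.X262.Emb5.Defs
import Crest.Agent.X262.Gwb59.Ax
import Crest.Agent.X262.End66.Rx

/-!
# Row 262, road B, EMB adapter (helper1): from one more factor to `Gw.EMB`

* `interp`, `Ref`, `Ref.trans` : refinement of gradings of numbers with a divisor equation;
* `gw_bij` : the numbers do not depend on the numbering of the factors;
* `emb_of_step` : `Step V → EqiStmt → V.gw.EMB`.
-/

set_option autoImplicit false
set_option linter.unusedSectionVars false

noncomputable section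

namespace Crest.Agent.X262.EmbA

open Crest.Agent.X277 Crest.Agent.X277.BD
open Crest.Agent.X262.Coh Crest.Agent.X262.Vb Crest.Agent.X262.Qn Crest.Agent.X262.Gwb
open Crest.Agent.X262.End66 Crest.Agent.X262.Emb5
open Finset

section Formal

variable {J₀ J₁ J H : Type}

/-- the divisor equation separates the degrees -/
theorem interp {h : J → H} {f : (J → ℕ) → Multiset H → ℂ}
    (hf : ∀ d j l, 3 ≤ Multiset.card l → f d (h j ::ₘ l) = d j * f d l) (S : Finset (J → ℕ))
    (c : (J → ℕ) → ℂ) (h0 : ∀ l, 3 ≤ Multiset.card l → ∑ d ∈ S, c d * f d l = 0) :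
    ∀ d ∈ S, ∀ l, 3 ≤ Multiset.card l → c d * f d l = 0 := by
  induction S using Finset.cons_induction generalizing c with
  | empty => simp
  | cons a S ha ih =>
    simp only [sum_cons] at h0
    have key : ∀ d ∈ S, ∀ l, 3 ≤ Multiset.card l → c d * f d l = 0 := fun d hd l hl => by
      obtain ⟨j, hj⟩ := Function.ne_iff.1 (show d ≠ a from fun e => ha (e ▸ hd))
      have h1 := ih (fun e => ((e j : ℂ) - a j) * c e) (fun l hl => by
        have h2 := h0 (h j ::ₘ l) (by simp; omega)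
        simp only [hf _ j l hl] at h2
        have h3 : ∑ e ∈ S, ((e j : ℂ) - a j) * c e * f e l =
            ∑ e ∈ S, c e * (e j * f e l) - a j * ∑ e ∈ S, c e * f e l := by
          rw [mul_sum, ← sum_sub_distrib]
          exact sum_congr rfl fun e _ => by ring
        linear_combination h3 + h2 - (a j : ℂ) * h0 l hl) d hd l hl
      rw [mul_assoc, mul_eq_zero, sub_eq_zero, Nat.cast_inj] at h1
      exact h1.resolve_left hj
    refine (forall_mem_cons _ _).2 ⟨fun l hl => ?_, key⟩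
    have h1 := h0 l hl
    rwa [sum_eq_zero fun d hd => key d hd l hl, add_zero] at h1

/-- the numbers `f` refine the numbers `f₀` along `g` -/
def Ref (f₀ : (J₀ → ℕ) → Multiset H → ℂ) (f : (J → ℕ) → Multiset H → ℂ) (g : J₀ → J) : Prop :=
  ∀ d₀, ∃ S : Finset (J → ℕ), (∀ d ∈ S, ∀ k, d (g k) = d₀ k) ∧ ∀ l, 3 ≤ Multiset.card l →
    (∀ d, (∀ k, d (g k) = d₀ k) → d ∉ S → f d l = 0) ∧ f₀ d₀ l = ∑ d ∈ S, f d l

theorem Ref.trans {f₀ : (J₀ → ℕ) → Multiset H → ℂ} {f₁ : (J₁ → ℕ) → Multiset H → ℂ}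
    {f : (J → ℕ) → Multiset H → ℂ} {g₁ : J₀ → J₁} {g₂ : J₁ → J} (h1 : Ref f₀ f₁ g₁)
    (h2 : Ref f₁ f g₂) {h : J → H}
    (hf : ∀ d j l, 3 ≤ Multiset.card l → f d (h j ::ₘ l) = d j * f d l) :
    Ref f₀ f fun k => g₂ (g₁ k) := fun d₀ => by
  classical
  choose S₂ h3 h4 using h2
  obtain ⟨S₁, h5, h6⟩ := h1 d₀
  refine ⟨S₁.biUnion S₂, fun d hd k => ?_, fun l hl => ⟨fun d hd hS => ?_, ?_⟩⟩
  · obtain ⟨d₁, h7, h8⟩ := mem_biUnion.1 hd
    rw [h3 d₁ d h8, h5 d₁ h7]
  · by_cases h7 : d ∈ S₂ fun k => d (g₂ k)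
    · have h8 : (fun k => d (g₂ k)) ∉ S₁ := fun h8 => hS (mem_biUnion.2 ⟨_, h8, h7⟩)
      simpa using interp hf _ (fun _ => 1) (fun l hl => by
        simp only [one_mul]
        rw [← (h4 _ l hl).2, (h6 l hl).1 _ hd h8]) d h7 l hl
    · exact (h4 _ l hl).1 d (fun _ => rfl) h7
  · rw [sum_biUnion fun a _ b _ hab => disjoint_left.2 fun d ha hb =>
      hab (funext fun k => (h3 a d ha k).symm.trans (h3 b d hb k)), (h6 l hl).2]
    exact sum_congr rfl fun d₁ _ => (h4 d₁ l hl).2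

end Formal

section Rx

variable {J : Type} [Fintype J] [DecidableEq J] {io : J → Type} [∀ j, Fintype (io j)]
  [∀ j, DecidableEq (io j)] {J' : Type} [Fintype J'] [DecidableEq J'] {io' : J' → Type}
  [∀ j, Fintype (io' j)] [∀ j, DecidableEq (io' j)] (r : Rx io io')

theorem mh_of_rename {q : MvPolynomial (Vr io) ℂ} {κ : J' → ℕ}
    (h : MH (MvPolynomial.rename r.vr q) κ) : MH q fun j => κ (r.e j) := by
  intro s hs
  have h1 := h (d := s.mapDomain r.vr)
    (by rwa [MvPolynomial.coeff_rename_mapDomain _ r.vr.injective])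
  have h2 := r.mh (q := MvPolynomial.monomial s 1)
    (MvPolynomial.isWeightedHomogeneous_monomial _ _ _ rfl) (d := s.mapDomain r.vr)
    (by rw [MvPolynomial.coeff_rename_mapDomain _ r.vr.injective]; simp)
  funext j
  simp only [← h1, h2, Equiv.symm_apply_apply]

end Rx

variable {Y : SV}

/-- equal tuples -/
def tupE {F : Type} {t t' : Tup F} (h : t = t') : t.io ≃ t'.io := Equiv.cast (congrArg Tup.io h)

theorem tupE_y {F : Type} {t t' : Tup F} (h : t = t') (i : t.io) : t'.y (tupE h i) = t.y i := by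
  subst h
  rfl

section Bij

variable {m₀ m : Pre Y} (r : Rx m₀.io m.io) (hr : r.pt m.y = m₀.y)
include hr

theorem same_tgt : Same m.tgt (r.tgt m₀.tgt) := by
  refine ⟨fun b => loc_of_mem (m.tgt_isEq.ge (Syz.mem_hI ((r.tgt m₀.tgt).hom b) ?_)),
    fun a => loc_of_mem ?_⟩
  · exact (r.on_tgt m₀.tgt m.y).2 (hr ▸ Pre.on_iff.2 Pre.on_y) b
  · obtain ⟨q, hq⟩ := (MvPolynomial.renameEquiv ℂ r.vr).surjective (m.tgt.F a)
    have h0 : MvPolynomial.rename r.vr q = m.tgt.F a := hq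
    have h1 : q ∈ Ideal.span (Set.range m₀.tgt.F) :=
      m₀.tgt_isEq.ge (Syz.mem_hI (mh_of_rename r (h0 ▸ m.tgt.hom a)) (by
        have h2 := r.pv_rename m.y q
        rw [hr, h0, Pre.on_iff.2 Pre.on_y a] at h2
        exact h2.symm))
    have h2 := Ideal.mem_map_of_mem (MvPolynomial.rename r.vr) h1
    rwa [Ideal.map_span, ← Set.range_comp, h0] at h2

/-- the data of the identity -/
def rsD : RsD (idH Y) m₀ m r.e where
  e := r.ei
  u _ := 1
  c _ := 1
  mem _ _ := Algebra.mem_top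
  eq k i := by
    rw [div_one, one_mul]
    exact congrFun (congrFun hr k) i

end Bij

variable {C : Coh.Th} {B : Hb.Th} (V : Vir C B)

/-- **renumbering** -/
theorem gw_bij (hE : EqiStmt) {m₀ m : Emb Y} (r : Rx m₀.toPre.io m.toPre.io)
    (hr : r.pt m.toPre.y = m₀.toPre.y) (d : m.J → ℕ) (l : Multiset (C.H Y)) :
    (V.num m₀).gw (fun j => d (r.e j)) l = (V.num m).gw d l := by
  obtain ⟨M, _, _, a, rfl, -⟩ := Ev.exists_idx l
  rw [Ev.gw_eq (V.a0 m₀ _), Ev.gw_eq (V.a0 m d), ← r.gw_tgt,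
    ← hE B V.hB _ _ _ d (rk_of_good (V.good m d)) (same_tgt r hr)]
  have hD := fun {E : Type} [Field E] [Algebra ℂ E] {z : Pnt m.toPre.io E} (h : m.tgt.On z) =>
    (Pre.on_iff.2 ((rsD r hr).on (Pre.on_iff.1 h)) : m₀.tgt.On (r.pt z))
  refine GW_congr (V.a0 m d) (mcls_prd (α := fun q E _ _ y => V.I.ev m₀.toPre E (r.pt y) (a q))
    fun q => ⟨fun E _ _ _ y c h1 h2 h3 => ?_, fun K E _ _ _ _ _ _ p y h1 h2 => ?_⟩)
    (Ev.mcls (V.evAx m) a) fun E _ _ _ y h1 h2 => prod_congr rfl fun q _ => ?_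
  · exact (V.hI.cls m₀.toPre (a q)).scl E (r.pt y) (fun j => c (r.e j)) (fun _ => h1 _)
      ((r.nz_pt y).2 h2) (hD h3)
  · refine (V.hI.cls m₀.toPre (a q)).nat K E p (r.pt y) (fun j => ⟨fun _ => (h1 _).1 _, ?_⟩) (hD h2)
    exact (r.ei j).surjective.exists.1 (h1 (r.e j)).2
  · have h3 := V.hI.rs (rsD r hr) E (y q) (h1 q) (Pre.on_iff.1 (h2 q)) (a q)
    rw [V.man.pb_id] at h3
    exact h3.symm

theorem ref_bij (hE : EqiStmt) {m₀ m : Emb Y} {g : m₀.J → m.J} (hg : Function.Bijective g)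
    (h : ∀ k, m₀.T k = m.T (g k)) : Ref (V.num m₀).gw (V.num m).gw g := fun d₀ => by
  let e := Equiv.ofBijective g hg
  have h1 : ∀ k, d₀ (e.symm (g k)) = d₀ k := fun k => congrArg d₀ (e.symm_apply_apply k)
  refine ⟨{fun j => d₀ (e.symm j)}, fun d hd k => mem_singleton.1 hd ▸ h1 k,
    fun l _ => ⟨fun d hd hS => (hS (mem_singleton.2 (funext fun j => ?_))).elim, ?_⟩⟩
  · rw [← hd]
    exact congrArg d (e.apply_symm_apply j).symm
  · rw [sum_singleton, ← gw_bij V hE ⟨e, fun k => tupE (h k)⟩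
      (funext fun k => funext (tupE_y (h k)))]
    exact congrArg ((V.num m₀).gw · l) (funext fun k => (h1 k).symm)

theorem ref_opt (hS : Step V) (m : Emb Y) (t : Tup Y.F) (ht : t.Reg Y) (hn : Nontrivial t.io) :
    Ref (V.num m).gw (V.num (opt m t ht hn)).gw some := fun d₀ => by
  obtain ⟨N, hN⟩ := hS Y m t ht hn d₀
  let φ : ℕ ↪ (Option m.J → ℕ) := ⟨fun n j => j.elim n d₀, fun _ _ h => congrFun h none⟩
  refine ⟨(range (N + 1)).map φ, fun d hd k => ?_, fun l _ => ⟨fun d hd h => ?_, ?_⟩⟩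
  · obtain ⟨n, -, rfl⟩ := mem_map.1 hd
    rfl
  · have h1 : d = φ (d none) := funext fun j => by cases j; exacts [rfl, hd _]
    rw [h1]
    refine (hN l).1 _ (not_le.1 fun h2 => h (mem_map.2 ⟨_, ?_, h1.symm⟩))
    exact mem_range.2 (Nat.lt_succ_of_le h2)
  · exact (hN l).2.trans (sum_map _ φ fun d => (V.num (opt m t ht hn)).gw d l).symm

theorem ref_all (hS : Step V) (hE : EqiStmt) (m : Emb Y) (n : ℕ) : ∀ (m₀ : Emb Y)
    (g : m₀.J → m.J), Function.Injective g → (∀ k, m₀.T k = m.T (g k)) →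
    Fintype.card m.J = Fintype.card m₀.J + n → Ref (V.num m₀).gw (V.num m).gw g := by
  induction n with
  | zero =>
    exact fun m₀ g hg h hc =>
      ref_bij V hE ((Fintype.bijective_iff_injective_and_card g).2 ⟨hg, hc.symm⟩) h
  | succ n ih =>
    intro m₀ g hg h hc
    obtain ⟨j, hj⟩ : ∃ j, ∀ k, g k ≠ j := by
      by_contra! h0
      have := Fintype.card_le_of_surjective g h0
      omega
    refine (ref_opt V hS m₀ (m.T j) (m.reg j) (m.nt j)).trans
      (ih _ (fun k : Option m₀.J => k.elim j g) ?_ (fun k => by cases k; exacts [rfl, h _]) ?_)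
      fun d j l hl => (V.numAx m).div d j l hl
    · rintro (_ | a) (_ | b) hab
      exacts [rfl, (hj b hab.symm).elim, (hj a hab).elim, congrArg some (hg hab)]
    · change _ = Fintype.card (Option m₀.J) + n
      rw [Fintype.card_option]
      omega

/-- **EMB** from one more factor -/
theorem emb_of_step (hS : Step V) (hE : EqiStmt) : V.gw.EMB := fun m₀ m g hg h d₀ l => by
  rcases lt_or_ge (Multiset.card l) 2 with hl | hl
  · exact ⟨∅, by simp, fun d _ _ => V.low m d l hl, V.low m₀ d₀ l hl⟩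
  obtain ⟨S, h1, h2⟩ := ref_all V hS hE m _ m₀ g hg h
    (Nat.add_sub_cancel' (Fintype.card_le_of_injective g hg)).symm d₀
  have h3 : ∀ y, 3 ≤ Multiset.card (y ::ₘ l) := fun y => by simp; omega
  refine ⟨S.map Finsupp.equivFunOnFinite.symm.toEmbedding, fun d hd => ?_, fun d hd hs => ?_,
    V.pd.ext fun y => ?_⟩
  · obtain ⟨e, he, rfl⟩ := mem_map.1 hd
    exact h1 e he
  · refine (V.pd _).2 _ fun y => ?_
    rw [mul_comm, V.itg_op m d hl]
    exact (h2 _ (h3 y)).1 d hd fun h4 => hs (mem_map.2 ⟨_, h4, by simp⟩)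
  · rw [mul_comm, V.itg_op m₀ d₀ hl, (h2 _ (h3 y)).2, sum_map, sum_mul, map_sum]
    exact sum_congr rfl fun e _ => by rw [mul_comm, V.itg_op m _ hl]; rfl

end Crest.Agent.X262.EmbA
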